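import Vale.Agent.H91.NS.CReal
import Vale.Agent.H48.NS.ExpApprox

/-!
The exponential of a computable rational that is at most `1` is a computable real
(final version of `CReal.exp_of`, using `Vale.Agent.H48.exp_approx`).
-/

namespace Vale.Agent.H91

open Vale.Agent.H30

section
variable {α : Type} [Primcodable α]

/-- exp of a computable rational that is at most 1 -/
theorem CReal.exp {r : α → ℚ} (hr : CRat r) (h1 : ∀ x, r x ≤ 1) :
    CReal (fun x => Real.exp ((r x : ℚ) : ℝ)) :=
  CReal.exp_of Vale.Agent.H48.exp_approx hr h1

end

end Vale.Agent.H91
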